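import Vale.Agent.P235.K5.W.H787.TT

/-!
Row [W-TF] of Theorem W (helper787): TRI and FAT.
-/

namespace Vale.Agent.P235.K5.W.H787

open SimpleGraph Vale.Agent.P235.H134 Vale.Agent.P235.H56

section

variable {V : Type} {G : SimpleGraph V} {f : V → Fin 3 ⊕ Fin 3}

/-- three pairwise different elements of `Fin 3` -/
lemma cov3 : ∀ i x y : Fin 3, x ≠ i → y ≠ i → x ≠ y → ∀ z, z = i ∨ z = x ∨ z = y := by decide

/-- first `K_5`: both halves see `A i` -/
lemma case1 {i j : Fin 3} (hM : M33 G f) (hX : Tri G (part f (Sum.inl i)) (lab G f Sum.inr))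
    (P R : Set V) (hPR : ∀ v, f v = Sum.inr j ↔ v ∈ P ∨ v ∈ R) (hdis : ∀ v ∈ P, v ∉ R)
    (hP : (G.induce P).Connected) (hR : (G.induce R).Connected) (hto : To G P R)
    (x y : Fin 3) (hxi : x ≠ i) (hyi : y ≠ i) (hxy : x ≠ y)
    (hPi : ∃ v ∈ P, lab G f Sum.inl v i) (hRi : ∃ v ∈ R, lab G f Sum.inl v i)
    (hPx : ∃ v ∈ P, lab G f Sum.inl v x) (hRy : ∃ v ∈ R, lab G f Sum.inl v y) : Has KF G := by
  classical
  obtain ⟨g, hg1, hg2, hg3⟩ := hX
  set X : Fin 3 → Set V := fun a => {v | v ∈ part f (Sum.inl i) ∧ g v = a} with hXd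
  set A : Fin 3 → Set V := fun x => {v | f v = Sum.inl x} with hAd
  set B : Fin 3 → Set V := fun y => {v | f v = Sum.inr y} with hBd
  have tX : ∀ a b, a ≠ b → To G (X a) (X b) := by
    intro a b hab
    obtain ⟨u, hu, v, hv, h1, h2, h3⟩ := hg2 a b hab
    exact ⟨u, ⟨hu, h1⟩, v, ⟨hv, h2⟩, h3⟩
  have tXB : ∀ b, To G (X b) (B b) := by
    intro b
    obtain ⟨u, v, hu, hv, h⟩ := hM.2 i b
    exact ⟨u, ⟨hu, hg3 u hu b ⟨v, hv, h⟩⟩, v, hv, h⟩
  have cA : ∀ x, (G.induce (A x)).Connected := fun x => hM.1 (Sum.inl x)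
  have cB : ∀ y, (G.induce (B y)).Connected := fun y => hM.1 (Sum.inr y)
  have tXP : To G (X j) P := by
    obtain ⟨v, hv, u, hu, h⟩ := hPi
    exact ⟨u, ⟨hu, hg3 u hu j ⟨v, (hPR v).mpr (Or.inl hv), h.symm⟩⟩, v, hv, h.symm⟩
  have tXR : To G (X j) R := by
    obtain ⟨v, hv, u, hu, h⟩ := hRi
    exact ⟨u, ⟨hu, hg3 u hu j ⟨v, (hPR v).mpr (Or.inr hv), h.symm⟩⟩, v, hv, h.symm⟩
  have tPx : To G P (A x) := by
    obtain ⟨v, hv, u, hu, h⟩ := hPx
    exact ⟨v, hv, u, hu, h⟩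
  have tRy : To G R (A y) := by
    obtain ⟨v, hv, u, hu, h⟩ := hRy
    exact ⟨v, hv, u, hu, h⟩
  refine k5 (![X j, X (j + 1) ∪ B (j + 1), X (j + 2) ∪ B (j + 2), P ∪ A x, R ∪ A y] :
      Fin 5 → Set V)
    (fun v => Sum.elim
      (fun z => if z = i then (![0, 1, 2] : Fin 3 → Fin 5) (g v - j) else
        (if z = x then 3 else 4))
      (fun w => if w = j then (if v ∈ P then 3 else 4) else
        (![0, 1, 2] : Fin 3 → Fin 5) (w - j)) (f v)) ?_ ?_ ?_ ?_ ?_ ?_ ?_ ?_ ?_ ?_ ?_ ?_ ?_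
  · intro v
    rcases hf : f v with z | w
    · rcases cov3 i x y hxi hyi hxy z with h | h | h
      · rw [h] at hf
        rcases fin3 j (g v) with h | h | h
        · exact ⟨0, ⟨hf, h⟩⟩
        · exact ⟨1, Or.inl ⟨hf, h⟩⟩
        · exact ⟨2, Or.inl ⟨hf, h⟩⟩
      · rw [h] at hf
        exact ⟨3, Or.inr hf⟩
      · rw [h] at hf
        exact ⟨4, Or.inr hf⟩
    · rcases fin3 j w with h | h | h
      · rw [h] at hf
        rcases (hPR v).mp hf with h' | h'
        · exact ⟨3, Or.inl h'⟩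
        · exact ⟨4, Or.inl h'⟩
      · rw [h] at hf
        exact ⟨1, Or.inr hf⟩
      · rw [h] at hf
        exact ⟨2, Or.inr hf⟩
  · intro k v hv
    match k, hv with
    | 0, hv =>
      obtain ⟨h1, h2⟩ := hv
      have h1' : f v = Sum.inl i := h1
      simp only [h1', h2, Sum.elim_inl, if_true, sub_self]
      rfl
    | 1, hv =>
      rcases hv with ⟨h1, h2⟩ | h1
      · have h1' : f v = Sum.inl i := h1
        simp only [h1', h2, Sum.elim_inl, if_true, add_sub_cancel_left]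
        rfl
      · have h1' : f v = Sum.inr (j + 1) := h1
        simp only [h1', Sum.elim_inr, if_neg (ne1 j), add_sub_cancel_left]
        rfl
    | 2, hv =>
      rcases hv with ⟨h1, h2⟩ | h1
      · have h1' : f v = Sum.inl i := h1
        simp only [h1', h2, Sum.elim_inl, if_true, add_sub_cancel_left]
        rfl
      · have h1' : f v = Sum.inr (j + 2) := h1
        simp only [h1', Sum.elim_inr, if_neg (ne2 j), add_sub_cancel_left]
        rfl
    | 3, hv =>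
      rcases hv with h1 | h1
      · have h1' : f v = Sum.inr j := (hPR v).mpr (Or.inl h1)
        simp only [h1', Sum.elim_inr, if_true, if_pos h1]
      · have h1' : f v = Sum.inl x := h1
        simp only [h1', Sum.elim_inl, if_neg hxi, if_true]
    | 4, hv =>
      rcases hv with h1 | h1
      · have h1' : f v = Sum.inr j := (hPR v).mpr (Or.inr h1)
        have h2 : v ∉ P := fun h => hdis v h h1
        simp only [h1', Sum.elim_inr, if_true, if_neg h2]
      · have h1' : f v = Sum.inl y := h1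
        simp only [h1', Sum.elim_inl, if_neg hyi, if_neg hxy.symm]
  · intro k
    match k with
    | 0 => exact hg1 j
    | 1 => exact (tXB (j + 1)).conn (hg1 (j + 1)) (cB (j + 1))
    | 2 => exact (tXB (j + 2)).conn (hg1 (j + 2)) (cB (j + 2))
    | 3 => exact tPx.conn hP (cA x)
    | 4 => exact tRy.conn hR (cA y)
  · exact (tX j (j + 1) (ne1 j).symm).mono subset_rfl Set.subset_union_left
  · exact (tX j (j + 2) (ne2 j).symm).mono subset_rfl Set.subset_union_left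
  · exact tXP.mono subset_rfl Set.subset_union_left
  · exact tXR.mono subset_rfl Set.subset_union_left
  · exact (tX _ _ (ne12 j)).mono Set.subset_union_left Set.subset_union_left
  · exact (tAB hM x (j + 1)).symm.mono Set.subset_union_right Set.subset_union_right
  · exact (tAB hM y (j + 1)).symm.mono Set.subset_union_right Set.subset_union_right
  · exact (tAB hM x (j + 2)).symm.mono Set.subset_union_right Set.subset_union_right
  · exact (tAB hM y (j + 2)).symm.mono Set.subset_union_right Set.subset_union_right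
  · exact hto.mono Set.subset_union_left Set.subset_union_left

/-- second `K_5`: `P` sees `A i` and `A x`, `R` sees `A x` and `A y` -/
lemma case2 {i j : Fin 3} (hM : M33 G f) (hX : Tri G (part f (Sum.inl i)) (lab G f Sum.inr))
    (P R : Set V) (hPR : ∀ v, f v = Sum.inr j ↔ v ∈ P ∨ v ∈ R) (hdis : ∀ v ∈ P, v ∉ R)
    (hP : (G.induce P).Connected) (hR : (G.induce R).Connected) (hto : To G P R)
    (x y : Fin 3) (hxi : x ≠ i) (hyi : y ≠ i) (hxy : x ≠ y)
    (hPi : ∃ v ∈ P, lab G f Sum.inl v i) (hPx : ∃ v ∈ P, lab G f Sum.inl v x)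
    (hRx : ∃ v ∈ R, lab G f Sum.inl v x) (hRy : ∃ v ∈ R, lab G f Sum.inl v y) : Has KF G := by
  classical
  obtain ⟨g, hg1, hg2, hg3⟩ := hX
  set X : Fin 3 → Set V := fun a => {v | v ∈ part f (Sum.inl i) ∧ g v = a} with hXd
  set A : Fin 3 → Set V := fun x => {v | f v = Sum.inl x} with hAd
  set B : Fin 3 → Set V := fun y => {v | f v = Sum.inr y} with hBd
  have tX : ∀ a b, a ≠ b → To G (X a) (X b) := by
    intro a b hab
    obtain ⟨u, hu, v, hv, h1, h2, h3⟩ := hg2 a b hab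
    exact ⟨u, ⟨hu, h1⟩, v, ⟨hv, h2⟩, h3⟩
  have tXB : ∀ b, To G (X b) (B b) := by
    intro b
    obtain ⟨u, v, hu, hv, h⟩ := hM.2 i b
    exact ⟨u, ⟨hu, hg3 u hu b ⟨v, hv, h⟩⟩, v, hv, h⟩
  have cA : ∀ x, (G.induce (A x)).Connected := fun x => hM.1 (Sum.inl x)
  have cB : ∀ y, (G.induce (B y)).Connected := fun y => hM.1 (Sum.inr y)
  have tXP : To G (X j) P := by
    obtain ⟨v, hv, u, hu, h⟩ := hPi
    exact ⟨u, ⟨hu, hg3 u hu j ⟨v, (hPR v).mpr (Or.inl hv), h.symm⟩⟩, v, hv, h.symm⟩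
  have tPx : To G P (A x) := by
    obtain ⟨v, hv, u, hu, h⟩ := hPx
    exact ⟨v, hv, u, hu, h⟩
  have tRx : To G R (A x) := by
    obtain ⟨v, hv, u, hu, h⟩ := hRx
    exact ⟨v, hv, u, hu, h⟩
  have tRy : To G R (A y) := by
    obtain ⟨v, hv, u, hu, h⟩ := hRy
    exact ⟨v, hv, u, hu, h⟩
  refine k5 (![X j ∪ P, X (j + 1) ∪ B (j + 1), X (j + 2) ∪ B (j + 2), A x, R ∪ A y] :
      Fin 5 → Set V)
    (fun v => Sum.elim
      (fun z => if z = i then (![0, 1, 2] : Fin 3 → Fin 5) (g v - j) else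
        (if z = x then 3 else 4))
      (fun w => if w = j then (if v ∈ P then 0 else 4) else
        (![0, 1, 2] : Fin 3 → Fin 5) (w - j)) (f v)) ?_ ?_ ?_ ?_ ?_ ?_ ?_ ?_ ?_ ?_ ?_ ?_ ?_
  · intro v
    rcases hf : f v with z | w
    · rcases cov3 i x y hxi hyi hxy z with h | h | h
      · rw [h] at hf
        rcases fin3 j (g v) with h | h | h
        · exact ⟨0, Or.inl ⟨hf, h⟩⟩
        · exact ⟨1, Or.inl ⟨hf, h⟩⟩
        · exact ⟨2, Or.inl ⟨hf, h⟩⟩
      · rw [h] at hf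
        exact ⟨3, hf⟩
      · rw [h] at hf
        exact ⟨4, Or.inr hf⟩
    · rcases fin3 j w with h | h | h
      · rw [h] at hf
        rcases (hPR v).mp hf with h' | h'
        · exact ⟨0, Or.inr h'⟩
        · exact ⟨4, Or.inl h'⟩
      · rw [h] at hf
        exact ⟨1, Or.inr hf⟩
      · rw [h] at hf
        exact ⟨2, Or.inr hf⟩
  · intro k v hv
    match k, hv with
    | 0, hv =>
      rcases hv with ⟨h1, h2⟩ | h1
      · have h1' : f v = Sum.inl i := h1
        simp only [h1', h2, Sum.elim_inl, if_true, sub_self]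
        rfl
      · have h1' : f v = Sum.inr j := (hPR v).mpr (Or.inl h1)
        simp only [h1', Sum.elim_inr, if_true, if_pos h1]
    | 1, hv =>
      rcases hv with ⟨h1, h2⟩ | h1
      · have h1' : f v = Sum.inl i := h1
        simp only [h1', h2, Sum.elim_inl, if_true, add_sub_cancel_left]
        rfl
      · have h1' : f v = Sum.inr (j + 1) := h1
        simp only [h1', Sum.elim_inr, if_neg (ne1 j), add_sub_cancel_left]
        rfl
    | 2, hv =>
      rcases hv with ⟨h1, h2⟩ | h1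
      · have h1' : f v = Sum.inl i := h1
        simp only [h1', h2, Sum.elim_inl, if_true, add_sub_cancel_left]
        rfl
      · have h1' : f v = Sum.inr (j + 2) := h1
        simp only [h1', Sum.elim_inr, if_neg (ne2 j), add_sub_cancel_left]
        rfl
    | 3, hv =>
      have h1' : f v = Sum.inl x := hv
      simp only [h1', Sum.elim_inl, if_neg hxi, if_true]
    | 4, hv =>
      rcases hv with h1 | h1
      · have h1' : f v = Sum.inr j := (hPR v).mpr (Or.inr h1)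
        have h2 : v ∉ P := fun h => hdis v h h1
        simp only [h1', Sum.elim_inr, if_true, if_neg h2]
      · have h1' : f v = Sum.inl y := h1
        simp only [h1', Sum.elim_inl, if_neg hyi, if_neg hxy.symm]
  · intro k
    match k with
    | 0 => exact tXP.conn (hg1 j) hP
    | 1 => exact (tXB (j + 1)).conn (hg1 (j + 1)) (cB (j + 1))
    | 2 => exact (tXB (j + 2)).conn (hg1 (j + 2)) (cB (j + 2))
    | 3 => exact cA x
    | 4 => exact tRy.conn hR (cA y)
  · exact (tX j (j + 1) (ne1 j).symm).mono Set.subset_union_left Set.subset_union_left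
  · exact (tX j (j + 2) (ne2 j).symm).mono Set.subset_union_left Set.subset_union_left
  · exact tPx.mono Set.subset_union_right subset_rfl
  · exact hto.mono Set.subset_union_right Set.subset_union_left
  · exact (tX _ _ (ne12 j)).mono Set.subset_union_left Set.subset_union_left
  · exact (tAB hM x (j + 1)).symm.mono Set.subset_union_right subset_rfl
  · exact (tAB hM y (j + 1)).symm.mono Set.subset_union_right Set.subset_union_right
  · exact (tAB hM x (j + 2)).symm.mono Set.subset_union_right subset_rfl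
  · exact (tAB hM y (j + 2)).symm.mono Set.subset_union_right Set.subset_union_right
  · exact tRx.symm.mono subset_rfl Set.subset_union_left

/-- the two halves of a connected set touch -/
lemma halves {X P : Set V} (hX : (G.induce X).Connected) (hP : P ⊆ X)
    (hPn : P.Nonempty) (hRn : (X \ P).Nonempty) : To G P (X \ P) := by
  obtain ⟨u, hu⟩ := hPn
  obtain ⟨v, hv⟩ := hRn
  obtain ⟨p⟩ := hX.preconnected (⟨u, hP hu⟩ : X) ⟨v, hv.1⟩
  obtain ⟨d, _, hd1, hd2⟩ := p.exists_boundary_dart {z : X | (z : V) ∈ P} hu hv.2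
  exact ⟨d.fst, hd1, d.snd, ⟨d.snd.2, hd2⟩, d.adj⟩

lemma two3 {L : Fin 3 → Prop} (i : Fin 3) (h : ∃ p q, p ≠ q ∧ L p ∧ L q) :
    (L i ∧ L (i + 1)) ∨ (L i ∧ L (i + 2)) ∨ (L (i + 1) ∧ L (i + 2)) := by
  obtain ⟨p, q, hpq, hp, hq⟩ := h
  rcases fin3 i p with h1 | h1 | h1 <;> rcases fin3 i q with h2 | h2 | h2 <;>
    rw [h1] at hp hpq <;> rw [h2] at hq hpq
  · exact absurd rfl hpq
  · exact Or.inl ⟨hp, hq⟩
  · exact Or.inr (Or.inl ⟨hp, hq⟩)
  · exact Or.inl ⟨hq, hp⟩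
  · exact absurd rfl hpq
  · exact Or.inr (Or.inr ⟨hp, hq⟩)
  · exact Or.inr (Or.inl ⟨hq, hp⟩)
  · exact Or.inr (Or.inr ⟨hq, hp⟩)
  · exact absurd rfl hpq

lemma final {P0 P1 P2 R0 R1 R2 Q : Prop} (hP : (P0 ∧ P1) ∨ (P0 ∧ P2) ∨ (P1 ∧ P2))
    (hR : (R0 ∧ R1) ∨ (R0 ∧ R2) ∨ (R1 ∧ R2)) (e0 : P0 ∨ R0) (e1 : P1 ∨ R1) (e2 : P2 ∨ R2)
    (c1 : P0 → R0 → P1 → R2 → Q) (c1' : P0 → R0 → P2 → R1 → Q) (c2 : P0 → P1 → R1 → R2 → Q)
    (c2' : P0 → P2 → R2 → R1 → Q) (d2 : R0 → R1 → P1 → P2 → Q) (d2' : R0 → R2 → P2 → P1 → Q) :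
    Q := by
  rcases hP with ⟨p0, p1⟩ | ⟨p0, p2⟩ | ⟨p1, p2⟩
  · rcases hR with ⟨r0, r1⟩ | ⟨r0, r2⟩ | ⟨r1, r2⟩
    · rcases e2 with p2 | r2
      · exact c1' p0 r0 p2 r1
      · exact c1 p0 r0 p1 r2
    · exact c1 p0 r0 p1 r2
    · exact c2 p0 p1 r1 r2
  · rcases hR with ⟨r0, r1⟩ | ⟨r0, r2⟩ | ⟨r1, r2⟩
    · exact c1' p0 r0 p2 r1
    · rcases e1 with p1 | r1
      · exact c1 p0 r0 p1 r2
      · exact c1' p0 r0 p2 r1
    · exact c2' p0 p2 r2 r1
  · rcases hR with ⟨r0, r1⟩ | ⟨r0, r2⟩ | ⟨r1, r2⟩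
    · exact d2 r0 r1 p1 p2
    · exact d2' r0 r2 p2 p1
    · rcases e0 with p0 | r0
      · exact c2 p0 p1 r1 r2
      · exact d2 r0 r1 p1 p2

end

/-- **[W-TF]** -/
theorem tf : TFStmt := by
  intro V G f i j hM hX hY
  obtain ⟨P, hPX, hP, hR, hP2, hR2⟩ := hY
  set R : Set V := part f (Sum.inr j) \ P with hRd
  have hPR : ∀ v, f v = Sum.inr j ↔ v ∈ P ∨ v ∈ R := by
    intro v
    by_cases h : v ∈ P
    · exact ⟨fun _ => Or.inl h, fun _ => hPX h⟩
    · exact ⟨fun h' => Or.inr ⟨h', h⟩, fun h' => h'.elim (fun h'' => absurd h'' h) fun h'' => h''.1⟩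
  have hdis : ∀ v ∈ P, v ∉ R := fun v h h' => h'.2 h
  have hdis' : ∀ v ∈ R, v ∉ P := fun v h h' => h.2 h'
  have hPR' : ∀ v, f v = Sum.inr j ↔ v ∈ R ∨ v ∈ P := fun v => (hPR v).trans or_comm
  have hto : To G P R := by
    refine halves (hM.1 (Sum.inr j)) hPX ?_ ?_
    · obtain ⟨p, q, _, ⟨v, hv, _⟩, _⟩ := hP2
      exact ⟨v, hv⟩
    · obtain ⟨p, q, _, ⟨v, hv, _⟩, _⟩ := hR2
      exact ⟨v, hv⟩
  have hall : ∀ p, (∃ v ∈ P, lab G f Sum.inl v p) ∨ ∃ v ∈ R, lab G f Sum.inl v p := by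
    intro p
    obtain ⟨u, v, hu, hv, h⟩ := hM.2 p j
    rcases (hPR v).mp hv with h' | h'
    · exact Or.inl ⟨v, h', u, hu, h.symm⟩
    · exact Or.inr ⟨v, h', u, hu, h.symm⟩
  have hP3 := two3 (L := fun p => ∃ v ∈ P, lab G f Sum.inl v p) i hP2
  have hR3 := two3 (L := fun p => ∃ v ∈ R, lab G f Sum.inl v p) i hR2
  have e0 := hall i
  have e1 := hall (i + 1)
  have e2 := hall (i + 2)
  have n1 := ne1 i
  have n2 := ne2 i
  have n12 := ne12 i
  have c1 := case1 hM hX P R hPR hdis hP hR hto (i + 1) (i + 2) n1 n2 n12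
  have c1' := case1 hM hX P R hPR hdis hP hR hto (i + 2) (i + 1) n2 n1 n12.symm
  have c2 := case2 hM hX P R hPR hdis hP hR hto (i + 1) (i + 2) n1 n2 n12
  have c2' := case2 hM hX P R hPR hdis hP hR hto (i + 2) (i + 1) n2 n1 n12.symm
  have d2 := case2 hM hX R P hPR' hdis' hR hP hto.symm (i + 1) (i + 2) n1 n2 n12
  have d2' := case2 hM hX R P hPR' hdis' hR hP hto.symm (i + 2) (i + 1) n2 n1 n12.symm
  exact final hP3 hR3 e0 e1 e2 c1 c1' c2 c2' d2 d2'

end Vale.Agent.P235.K5.W.H787
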