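import Vale.Agent.P235.K5.W.Defs

/-!
Rows [W-TT] and [W-TF] of Theorem W (helper787): two explicit `K_5` models.
-/

namespace Vale.Agent.P235.K5.W.H787

open SimpleGraph Vale.Agent.P235.H134 Vale.Agent.P235.H56

/-- `A` and `B` touch -/
def To {V : Type} (G : SimpleGraph V) (A B : Set V) : Prop := ∃ u ∈ A, ∃ v ∈ B, G.Adj u v

lemma To.symm {V : Type} {G : SimpleGraph V} {A B : Set V} (h : To G A B) : To G B A := by
  obtain ⟨u, hu, v, hv, h⟩ := h
  exact ⟨v, hv, u, hu, h.symm⟩

lemma To.mono {V : Type} {G : SimpleGraph V} {A B A' B' : Set V} (h : To G A B) (hA : A ⊆ A')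
    (hB : B ⊆ B') : To G A' B' := by
  obtain ⟨u, hu, v, hv, h⟩ := h
  exact ⟨u, hA hu, v, hB hv, h⟩

lemma To.conn {V : Type} {G : SimpleGraph V} {A B : Set V} (h : To G A B)
    (hA : (G.induce A).Connected) (hB : (G.induce B).Connected) :
    (G.induce (A ∪ B)).Connected := by
  obtain ⟨u, hu, v, hv, h⟩ := h
  exact connected_induce_union hA.preconnected hB.preconnected hu hv h

/-- five sets -/
lemma k5 {V : Type} {G : SimpleGraph V} (S : Fin 5 → Set V) (F : V → Fin 5)
    (hcov : ∀ v, ∃ k, v ∈ S k) (hF : ∀ k, ∀ v ∈ S k, F v = k)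
    (hcon : ∀ k, (G.induce (S k)).Connected)
    (h01 : To G (S 0) (S 1)) (h02 : To G (S 0) (S 2)) (h03 : To G (S 0) (S 3))
    (h04 : To G (S 0) (S 4)) (h12 : To G (S 1) (S 2)) (h13 : To G (S 1) (S 3))
    (h14 : To G (S 1) (S 4)) (h23 : To G (S 2) (S 3)) (h24 : To G (S 2) (S 4))
    (h34 : To G (S 3) (S 4)) :
    Has KF G := by
  have hfib : ∀ k, {v | F v = k} = S k := by
    intro k
    ext v
    refine ⟨fun h => ?_, fun h => hF k v h⟩
    obtain ⟨l, hl⟩ := hcov v
    have h1 := hF l v hl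
    have h2 : F v = k := h
    rw [← h2, h1]
    exact hl
  have ht : ∀ k l, k ≠ l → To G (S k) (S l) := by
    intro k l hkl
    fin_cases k <;> fin_cases l
    · exact absurd rfl hkl
    · exact h01
    · exact h02
    · exact h03
    · exact h04
    · exact h01.symm
    · exact absurd rfl hkl
    · exact h12
    · exact h13
    · exact h14
    · exact h02.symm
    · exact h12.symm
    · exact absurd rfl hkl
    · exact h23
    · exact h24
    · exact h03.symm
    · exact h13.symm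
    · exact h23.symm
    · exact absurd rfl hkl
    · exact h34
    · exact h04.symm
    · exact h14.symm
    · exact h24.symm
    · exact h34.symm
    · exact absurd rfl hkl
  refine ⟨F, fun k => ?_, fun k l hkl => ?_⟩
  · rw [hfib]
    exact hcon k
  · obtain ⟨u, hu, v, hv, ha⟩ := ht k l hkl.ne
    exact ⟨u, v, hF k u hu, hF l v hv, ha⟩

lemma fin3 : ∀ i x : Fin 3, x = i ∨ x = i + 1 ∨ x = i + 2 := by decide
lemma ne1 : ∀ i : Fin 3, i + 1 ≠ i := by decide
lemma ne2 : ∀ i : Fin 3, i + 2 ≠ i := by decide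
lemma ne12 : ∀ i : Fin 3, i + 1 ≠ i + 2 := by decide

section

variable {V : Type} {G : SimpleGraph V} {f : V → Fin 3 ⊕ Fin 3}

lemma tAB (hM : M33 G f) (x y : Fin 3) : To G {v | f v = Sum.inl x} {v | f v = Sum.inr y} := by
  obtain ⟨u, v, hu, hv, h⟩ := hM.2 x y
  exact ⟨u, hu, v, hv, h⟩

end

/-- **[W-TT]** -/
theorem tt : TTStmt := by
  intro V G f i j hM hX hY
  obtain ⟨g, hg1, hg2, hg3⟩ := hX
  obtain ⟨g', hg1', hg2', hg3'⟩ := hY
  set X : Fin 3 → Set V := fun a => {v | v ∈ part f (Sum.inl i) ∧ g v = a} with hXd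
  set Y : Fin 3 → Set V := fun b => {v | v ∈ part f (Sum.inr j) ∧ g' v = b} with hYd
  set A : Fin 3 → Set V := fun x => {v | f v = Sum.inl x} with hAd
  set B : Fin 3 → Set V := fun y => {v | f v = Sum.inr y} with hBd
  have tX : ∀ a b, a ≠ b → To G (X a) (X b) := by
    intro a b hab
    obtain ⟨u, hu, v, hv, h1, h2, h3⟩ := hg2 a b hab
    exact ⟨u, ⟨hu, h1⟩, v, ⟨hv, h2⟩, h3⟩
  have tY : ∀ a b, a ≠ b → To G (Y a) (Y b) := by
    intro a b hab
    obtain ⟨u, hu, v, hv, h1, h2, h3⟩ := hg2' a b hab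
    exact ⟨u, ⟨hu, h1⟩, v, ⟨hv, h2⟩, h3⟩
  have tXB : ∀ b, To G (X b) (B b) := by
    intro b
    obtain ⟨u, v, hu, hv, h⟩ := hM.2 i b
    exact ⟨u, ⟨hu, hg3 u hu b ⟨v, hv, h⟩⟩, v, hv, h⟩
  have tYA : ∀ a, To G (Y a) (A a) := by
    intro a
    obtain ⟨u, v, hu, hv, h⟩ := hM.2 a j
    exact ⟨v, ⟨hv, hg3' v hv a ⟨u, hu, h.symm⟩⟩, u, hu, h.symm⟩
  have tXY : To G (X j) (Y i) := by
    obtain ⟨u, v, hu, hv, h⟩ := hM.2 i j
    exact ⟨u, ⟨hu, hg3 u hu j ⟨v, hv, h⟩⟩, v, ⟨hv, hg3' v hv i ⟨u, hu, h.symm⟩⟩, h⟩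
  have cA : ∀ x, (G.induce (A x)).Connected := fun x => hM.1 (Sum.inl x)
  have cB : ∀ y, (G.induce (B y)).Connected := fun y => hM.1 (Sum.inr y)
  refine k5 (![X j ∪ Y i, X (j + 1) ∪ B (j + 1), X (j + 2) ∪ B (j + 2), Y (i + 1) ∪ A (i + 1),
    Y (i + 2) ∪ A (i + 2)] : Fin 5 → Set V)
    (fun v => Sum.elim
      (fun x => if x = i then (![0, 1, 2] : Fin 3 → Fin 5) (g v - j) else
        (![0, 3, 4] : Fin 3 → Fin 5) (x - i))
      (fun y => if y = j then (![0, 3, 4] : Fin 3 → Fin 5) (g' v - i) else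
        (![0, 1, 2] : Fin 3 → Fin 5) (y - j)) (f v)) ?_ ?_ ?_ ?_ ?_ ?_ ?_ ?_ ?_ ?_ ?_ ?_ ?_
  · intro v
    rcases hf : f v with x | y
    · rcases fin3 i x with rfl | rfl | rfl
      · rcases fin3 j (g v) with h | h | h
        · exact ⟨0, Or.inl ⟨hf, h⟩⟩
        · exact ⟨1, Or.inl ⟨hf, h⟩⟩
        · exact ⟨2, Or.inl ⟨hf, h⟩⟩
      · exact ⟨3, Or.inr hf⟩
      · exact ⟨4, Or.inr hf⟩
    · rcases fin3 j y with rfl | rfl | rfl
      · rcases fin3 i (g' v) with h | h | h
        · exact ⟨0, Or.inr ⟨hf, h⟩⟩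
        · exact ⟨3, Or.inl ⟨hf, h⟩⟩
        · exact ⟨4, Or.inl ⟨hf, h⟩⟩
      · exact ⟨1, Or.inr hf⟩
      · exact ⟨2, Or.inr hf⟩
  · intro k v hv
    match k, hv with
    | 0, hv =>
      rcases hv with ⟨h1, h2⟩ | ⟨h1, h2⟩
      · have h1' : f v = Sum.inl i := h1
        simp only [h1', h2, Sum.elim_inl, if_true, sub_self]
        rfl
      · have h1' : f v = Sum.inr j := h1
        simp only [h1', h2, Sum.elim_inr, if_true, sub_self]
        rfl
    | 1, hv =>
      rcases hv with ⟨h1, h2⟩ | h1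
      · have h1' : f v = Sum.inl i := h1
        simp only [h1', h2, Sum.elim_inl, if_true, add_sub_cancel_left]
        rfl
      · have h1' : f v = Sum.inr (j + 1) := h1
        simp only [h1', Sum.elim_inr, if_neg (ne1 j), add_sub_cancel_left]
        rfl
    | 2, hv =>
      rcases hv with ⟨h1, h2⟩ | h1
      · have h1' : f v = Sum.inl i := h1
        simp only [h1', h2, Sum.elim_inl, if_true, add_sub_cancel_left]
        rfl
      · have h1' : f v = Sum.inr (j + 2) := h1
        simp only [h1', Sum.elim_inr, if_neg (ne2 j), add_sub_cancel_left]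
        rfl
    | 3, hv =>
      rcases hv with ⟨h1, h2⟩ | h1
      · have h1' : f v = Sum.inr j := h1
        simp only [h1', h2, Sum.elim_inr, if_true, add_sub_cancel_left]
        rfl
      · have h1' : f v = Sum.inl (i + 1) := h1
        simp only [h1', Sum.elim_inl, if_neg (ne1 i), add_sub_cancel_left]
        rfl
    | 4, hv =>
      rcases hv with ⟨h1, h2⟩ | h1
      · have h1' : f v = Sum.inr j := h1
        simp only [h1', h2, Sum.elim_inr, if_true, add_sub_cancel_left]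
        rfl
      · have h1' : f v = Sum.inl (i + 2) := h1
        simp only [h1', Sum.elim_inl, if_neg (ne2 i), add_sub_cancel_left]
        rfl
  · intro k
    match k with
    | 0 => exact tXY.conn (hg1 j) (hg1' i)
    | 1 => exact (tXB (j + 1)).conn (hg1 (j + 1)) (cB (j + 1))
    | 2 => exact (tXB (j + 2)).conn (hg1 (j + 2)) (cB (j + 2))
    | 3 => exact (tYA (i + 1)).conn (hg1' (i + 1)) (cA (i + 1))
    | 4 => exact (tYA (i + 2)).conn (hg1' (i + 2)) (cA (i + 2))
  · exact (tX j (j + 1) (ne1 j).symm).mono Set.subset_union_left Set.subset_union_left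
  · exact (tX j (j + 2) (ne2 j).symm).mono Set.subset_union_left Set.subset_union_left
  · exact (tY i (i + 1) (ne1 i).symm).mono Set.subset_union_right Set.subset_union_left
  · exact (tY i (i + 2) (ne2 i).symm).mono Set.subset_union_right Set.subset_union_left
  · exact (tX _ _ (ne12 j)).mono Set.subset_union_left Set.subset_union_left
  · exact (tAB hM (i + 1) (j + 1)).symm.mono Set.subset_union_right Set.subset_union_right
  · exact (tAB hM (i + 2) (j + 1)).symm.mono Set.subset_union_right Set.subset_union_right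
  · exact (tAB hM (i + 1) (j + 2)).symm.mono Set.subset_union_right Set.subset_union_right
  · exact (tAB hM (i + 2) (j + 2)).symm.mono Set.subset_union_right Set.subset_union_right
  · exact (tY _ _ (ne12 i)).mono Set.subset_union_left Set.subset_union_left

end Vale.Agent.P235.K5.W.H787
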